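import Vale.Agent.P092.H437.P2Inst
import Vale.Agent.P092.H370.Fo3

/-!
P092 (helper437), Team P, row (I) for every nondegenerate trace valued form (`Fo`, helper370; the
orthogonal forms included): **`KEY_0` implies that orthogonal source points commute**.
-/

set_option linter.all false

open Matrix Set Topology Module

namespace Vale.Agent.P092.H437.O

open Vale.Agent.P092.H714.Cl
open Vale.Agent.P092.H370.Po
open Vale.Agent.P092.H370.Fo (Fo)
open Vale.Agent.P092.H100.Gr (Gr)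
open Vale.Agent.P092.H232 (Nin join)
open Vale.Agent.P092.H218.NC (tsupport_star nin_swap exists_line eq_of_le₀)
open Vale.Agent.P092.H437.P2
open Vale.Agent.P092.H702.PG (ort_join uniq sup_eq)

section alg

variable {n : Type} [Fintype n] [DecidableEq n] {k : Type} [Field k]
  {σ : k →+* k} {ε : k} {J : Matrix n n k}
  {Y : ℕ → Type*} [∀ j, TopologicalSpace (Y j)] [∀ j, CompactSpace (Y j)] [∀ j, T2Space (Y j)]
  {K : Type*} [NormedAddCommGroup K] [InnerProductSpace ℂ K] [CompleteSpace K]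

theorem ortS (hF : Fo σ ε J) {X Y : Submodule k (n → k)} (h : Ort σ J X Y) :
    Ort σ J Y X := fun y hy x hx => hF.fm.symm0 (h x hx y hy)

section exc

/-- the second maximal subspace through the hyperplane `M` of `P` -/
theorem exists_Q (hF : Fo σ ε J) {N : ℕ} {P : SGr σ J (N + 1)} {M : SGr σ J N}
    {l : SGr σ J 2} (hMP : Inc M P) (hlP : Inc l P) (hlM : ¬ Inc l M) :
    ∃ Q : SGr σ J (N + 1), Inc M Q ∧ Q ≠ P ∧
      ∀ c : SGr σ J 1, Inc c Q → ¬ Inc c P → ¬ Col c l := by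
  obtain ⟨u, hul, huM⟩ := SetLike.not_le_iff_exists.1 hlM
  have huP : u ∈ P.S := hlP hul
  obtain ⟨φ, hφ1, hφ0⟩ := exists_functional hMP huP huM
  have hφ : φ ≠ 0 := fun h => by
    rw [h] at hφ1
    exact zero_ne_one hφ1
  obtain ⟨v, hv, hvφ⟩ := Vale.Agent.P092.H370.Fo.exists_iso_prod hF P.sing φ hφ
  have huv : hf σ J u v = 1 := by
    rw [hvφ ⟨u, huP⟩, hφ1]
  have hMv : ∀ x ∈ M.S, hf σ J x v = 0 := fun x hx => by
    rw [hvφ ⟨x, hMP hx⟩, hφ0 ⟨x, hMP hx⟩ hx]
  have hvP : v ∉ P.S := fun h => by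
    have := P.sing u huP v h
    rw [huv] at this
    exact one_ne_zero this
  have hvM : v ∉ M.S := fun h => hvP (hMP h)
  refine ⟨SGr.mk' (M.S ⊔ Submodule.span k {v}) (Vale.Agent.P092.H370.Fo.sing_sup_span hF M.sing hv hMv)
    (by rw [finrank_sup_span hvM, M.dim]), le_sup_left, fun he => hvP ?_, ?_⟩
  · rw [← he]
    exact (le_sup_right : Submodule.span k {v} ≤ _) (Submodule.mem_span_singleton_self v)
  · intro c hcQ hcP hcl
    obtain ⟨w, hwc, hwP⟩ := SetLike.not_le_iff_exists.1 hcP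
    have hwQ : w ∈ M.S ⊔ Submodule.span k {v} := hcQ hwc
    obtain ⟨m, hm, t, ht, rfl⟩ := Submodule.mem_sup.1 hwQ
    obtain ⟨d, rfl⟩ := Submodule.mem_span_singleton.1 ht
    have h1 : hf σ J (m + d • v) u = 0 := hcl _ hwc u hul
    rw [hf_add_left, hf_smul_left, P.sing m (hMP hm) u huP, zero_add] at h1
    rcases mul_eq_zero.1 h1 with h2 | h2
    · apply hwP
      rw [h2, zero_smul, add_zero]
      exact hMP hm
    · have := hF.fm.symm0 h2
      rw [huv] at this
      exact one_ne_zero this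

end exc

section inP

variable [∀ j, TotallyDisconnectedSpace (Y j)] {In : ∀ i j, Y i → Y j → Prop}
  {O : ∀ j, Y 1 → Y j → Prop} {G : ∀ j, SGr σ J j → (C(Y j, ℂ) →⋆ₐ[ℂ] (K →L[ℂ] K))} {N : ℕ}

/-- step (b): `Key₁` inside the maximal subspace `P` -/
theorem key_b (hF : Fo σ ε J) (hN : 2 ≤ N) (hT : Tg Y In) (hO : TgO (N + 1) Y In O)
    (hG : CalP (N + 1) In G) (hK : Key0 (N + 1) O G) {P : SGr σ J (N + 1)} {M : SGr σ J N}
    {l : SGr σ J 2} {b : SGr σ J 1} (hMP : Inc M P) (hlP : Inc l P) (hlM : ¬ Inc l M)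
    (hbM : Inc b M) (hbl : ¬ Inc b l) (u) (g) (a) (h : Nin (In 1 N) a u) :
    G N M u * G 2 l g * G 1 b a = 0 := by
  obtain ⟨Q, hMQ, hQP, hQ⟩ := exists_Q hF hMP hlP hlM
  have hbP := hbM.trans hMP
  have hbQ := hbM.trans hMQ
  have hQP' : ¬ Inc Q P := fun h => hQP (SGr.eq_of_le h)
  have key : ∀ (f : C(Y 2, ℂ)) (s : C(Y (N + 1), ℂ)) (a : C(Y 1, ℂ)),
      Nin (In 1 (N + 1)) a s → G (N + 1) Q s * G 2 l f * G 1 b a = 0 := by
    intro f s a hn
    refine key_a hT hO hG hK hlP hbP hbQ hbl hQ (N + 1) (by omega) le_rfl Q (Inc.refl Q) hQP'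
      s f a fun x hx y hy hxy => hn x hx y hy (hO.max x y hxy)
  have main := join (I₁ := fun x z => In 1 (N + 1) x z) (I₂ := fun x z => In N (N + 1) x z)
    (J := fun x y => In 1 N x y) (hT.closed 1 (N + 1)) (hT.closed N (N + 1))
    (fun x y hxy z z' h1 h2 h3 h4 => hT.join 1 N x y hxy z z' h1 h2 h3 h4)
    (G 1 b) (G N M) (G 2 l (star g)) (G (N + 1) P) (G (N + 1) Q)
    (fun u v => hG.com 1 (N + 1) (by omega) (by omega) le_rfl b P hbP u v)
    (fun a v => hG.com N (N + 1) (by omega) (by omega) le_rfl M P hMP a v)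
    (fun v => hG.com 2 (N + 1) (by omega) (by omega) le_rfl l P hlP _ v)
    (fun a s => hG.com N (N + 1) (by omega) (by omega) le_rfl M Q hMQ a s)
    (fun u v huv => hG.inc 1 (N + 1) (by omega) (by omega) le_rfl b P hbP u v huv)
    (fun a v hav => hG.inc N (N + 1) (by omega) (by omega) le_rfl M P hMP a v hav)
    (fun a s has => hG.inc N (N + 1) (by omega) (by omega) le_rfl M Q hMQ a s has)
    (hG.agrM P Q hQP.symm ⟨M, hMP, hMQ⟩) (D := univ) isOpen_univ
    (fun u' s _ hus => ?_) (star a) (star u) (subset_univ _) ?_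
  · have h2 := congrArg star main
    simpa only [star_mul, map_star, star_star, star_zero, mul_assoc] using h2
  · have h1 := key g (star s) (star u') (fun x hx y hy => by
      rw [tsupport_star] at hx hy
      exact hus x hx y hy)
    have h2 := congrArg star h1
    simpa only [star_mul, map_star, star_star, star_zero, mul_assoc] using h2
  · intro x hx y hy
    rw [tsupport_star] at hx hy
    exact h x hx y hy

end inP


section out

variable [∀ j, TotallyDisconnectedSpace (Y j)] {In : ∀ i j, Y i → Y j → Prop}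
  {O : ∀ j, Y 1 → Y j → Prop} {G : ∀ j, SGr σ J j → (C(Y j, ℂ) →⋆ₐ[ℂ] (K →L[ℂ] K))} {N : ℕ}

/-- **orthogonal points commute** -/
theorem pts_comm (hF : Fo σ ε J) (hN : 2 ≤ N) (Y₀ : SGr σ J (N + 1)) (hT : Tg Y In)
    (hO : TgO (N + 1) Y In O) (hG : CalP (N + 1) In G) (hK : Key0 (N + 1) O G)
    (a b : SGr σ J 1) (hab : Col a b) (f g) : Commute (G 1 a f) (G 1 b g) := by
  -- a maximal subspace containing both points
  obtain ⟨P, haP, hbP⟩ : ∃ P : SGr σ J (N + 1), Inc a P ∧ Inc b P := by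
    have hs : Sing σ J (a.S ⊔ b.S) := by
      unfold Sing
      rw [ort_sup_left, ort_sup_right, ort_sup_right]
      exact ⟨⟨a.sing, hab⟩, ortS hF hab, b.sing⟩
    have hd : finrank k ↥(a.S ⊔ b.S) ≤ 2 := by
      have := Submodule.finrank_add_le_finrank_add_finrank a.S b.S
      rw [a.dim, b.dim] at this
      exact this
    obtain ⟨P, hP⟩ := Vale.Agent.P092.H370.Fo.exists_inc_ge hF (l := N + 1) (by omega) le_rfl
      (SGr.mk' (a.S ⊔ b.S) hs rfl) Y₀
    exact ⟨P, le_sup_left.trans hP, le_sup_right.trans hP⟩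
  obtain ⟨a', rfl⟩ := emb_surj P a haP
  obtain ⟨b', rfl⟩ := emb_surj P b hbP
  refine points_comm (Y := Y) (In := In) (G := fun j X => G j (emb P X)) hN hT
    (cal_emb hG P hN) ?_ a' b' f g
  intro C l b hbC hlC hbl u g a hn
  exact key_b hF hN hT hO hG hK (emb_P P C) (emb_P P l) (fun h => hlC ((emb_inc P).1 h))
    ((emb_inc P).2 hbC) (fun h => hbl ((emb_inc P).1 h)) u g a hn

end out

end alg

section inst

variable {n : Type} [Fintype n] [DecidableEq n] {k : Type} [NontriviallyNormedField k]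
  [ProperSpace k] {σ : k →+* k} {ε : k} {J : Matrix n n k}

theorem tgOS (hσ : Continuous σ) (hF : Fo σ ε J) {r : ℕ} (hW : WI σ J r) :
    TgO r (SGr σ J) (fun i j => Inc (i := i) (j := j)) (fun j => Col (i := 1) (j := j)) where
  closed j := col_closed hσ
  hyp j b z x x' hz h1 h2 h3 h4 := by
    by_contra hne
    exact hz (ortS hF (ort_join hne h1 h2 (ortS hF h3) (ortS hF h4)))
  max b y h := by
    have hs : Sing σ J (b.S ⊔ y.S) :=
      ort_sup_left.2 ⟨ort_sup_right.2 ⟨b.sing, h⟩, ort_sup_right.2 ⟨ortS hF h, y.sing⟩⟩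
    have h1 := hW.2 _ hs
    have h2 : y.S = b.S ⊔ y.S :=
      Submodule.eq_of_le_of_finrank_le le_sup_right (by rw [y.dim]; exact h1)
    change b.S ≤ y.S
    rw [h2]
    exact le_sup_left

/-- **stage 2 (I), target = singular Grassmannians over an ultrametric local field** -/
theorem pts_commS [IsUltrametricDist k] [Fact (Continuous σ)] (hF : Fo σ ε J) {N : ℕ}
    (hW : WI σ J (N + 1)) {n' : Type} [Fintype n'] [DecidableEq n'] {F : Type} [Field F]
    {σ' : F →+* F} {ε' : F} {J' : Matrix n' n' F} (hF' : Fo σ' ε' J') (hN : 2 ≤ N)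
    (Y₀ : SGr σ' J' (N + 1)) {K : Type*} [NormedAddCommGroup K] [InnerProductSpace ℂ K]
    [CompleteSpace K] {G : ∀ j, SGr σ' J' j → (C(SGr σ J j, ℂ) →⋆ₐ[ℂ] (K →L[ℂ] K))}
    (hG : CalP (N + 1) (fun i j => Inc (i := i) (j := j)) G)
    (hK : Key0 (N + 1) (fun j => Col (i := 1) (j := j)) G) (a b : SGr σ' J' 1) (hab : Col a b)
    (f g) : Commute (G 1 a f) (G 1 b g) :=
  pts_comm hF' hN Y₀ tgS (tgOS Fact.out hF hW) hG hK a b hab f g

end inst

end Vale.Agent.P092.H437.O
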