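import Vale.Agent.P092.H437.O.Key0
import Vale.Agent.P092.H437.CLNabr

/-!
P092 (helper437), Team P, row (I): the count of `KEY_0` for a group over the isometry group.
-/

set_option linter.all false

open scoped InnerProductSpace LinearAlgebra.Projectivization Matrix
open Set Topology Module Matrix

namespace Vale.Agent.P092.H437.O

open Vale.Agent.P092.H303 (FormGroup)
open Vale.Agent.P092.H714.Cl (hf)
open Vale.Agent.P092.H370.Po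
open Vale.Agent.P092.H232 (Nin)
open Vale.Agent.P092.H796 (PL)
open Vale.Agent.P092.CL (Lt)

variable {n : Type} [Fintype n] [DecidableEq n] {k : Type} [NontriviallyNormedField k]
  [ProperSpace k] {σ : k →+* k} {J : Matrix n n k} {N r : ℕ} {V₁ V₂ : Type}
  [MeasurableSpace V₁] [MeasurableSpace V₂] {S : Type} [Group S]
  [∀ j, MulAction S (SGr σ J j)] [∀ j, ContinuousConstSMul S (SGr σ J j)]
  {Γ K : Type} [NormedAddCommGroup K] [InnerProductSpace ℂ K] [CompleteSpace K]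

/-- transfer of the count along `φ : S →* FormGroup σ J` -/
theorem cnt0_phi [Fact (Continuous σ)] {L : Lt S (SGr σ J 1) (SGr σ J r) V₁ V₂}
    {L' : Lt (FormGroup σ J) (SGr σ J 1) (SGr σ J r) V₁ V₂} (φ : S →* FormGroup σ J)
    (h1 : ∀ (g : S) (x : SGr σ J 1), g • x = φ g • x)
    (h2 : ∀ (g : S) (x : SGr σ J 2), g • x = φ g • x) (hnm : ∀ g, L.nm g = L'.nm (φ g))
    (hna : ∀ g R T A, g ∈ L.NA1 R T A → φ g ∈ L'.NA1 R T A) {q : Γ → S}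
    (h : P2.Cnt0 L' (fun γ => φ (q γ)) K) : Cnt0 L q K := by
  intro b z l ν hbν hzν hzl hbl a f ha hfl A hA hopp R
  obtain ⟨T, hT, C, d, h3⟩ := h b z l ν hbν hzν hzl hbl a f ha hfl A hA hopp R
  refine ⟨T, hT, C, d, fun j hj F hF ξ => ?_⟩
  refine le_trans (le_of_eq ?_) (h3 j hj F (fun γ hγ => ⟨hna _ _ _ _ (hF γ hγ).1, ?_⟩) ξ)
  · refine Finset.sum_congr rfl fun γ _ => ?_
    have e1 : CL.act (q γ)⁻¹ a = CL.act (φ (q γ))⁻¹ a := by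
      ext x
      change a (((q γ)⁻¹)⁻¹ • x) = a (((φ (q γ))⁻¹)⁻¹ • x)
      rw [inv_inv, inv_inv, h1]
    have e2 : CL.act (q γ)⁻¹ f = CL.act (φ (q γ))⁻¹ f := by
      ext x
      change f (((q γ)⁻¹)⁻¹ • x) = f (((φ (q γ))⁻¹)⁻¹ • x)
      rw [inv_inv, inv_inv, h2]
    rw [e1, e2]
  · have h4 := (hF γ hγ).2
    rwa [hnm] at h4

/-- the record over the isometry group -/
noncomputable def down (L : Lt S (SGr σ J 1) (SGr σ J r) V₁ V₂) (φ : S →* FormGroup σ J) :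
    Lt (FormGroup σ J) (SGr σ J 1) (SGr σ J r) V₁ V₂ where
  In := L.In
  p0 := L.p0
  m0 := L.m0
  b1 := φ L.b1
  b2 := φ L.b2
  u1 s := φ (L.u1 s)
  u2 s := φ (L.u2 s)
  μ₁ := L.μ₁
  μ₂ := L.μ₂
  nm g := ‖(fun i j => (g.1⁻¹).1ᵀ i j : n → n → k)‖
  NA1 R T B := {g | (∀ i i' j j',
    ‖(g.1⁻¹).1ᵀ i j * (g.1⁻¹).1ᵀ i' j' - (g.1⁻¹).1ᵀ i' j * (g.1⁻¹).1ᵀ i j'‖ ≤
      R * ‖(fun i j => (g.1⁻¹).1ᵀ i j : n → n → k)‖) ∧
    ∃ X ∈ B, ∃ D : Matrix n n k, (∀ v, D *ᵥ v ∈ X.S) ∧ ∀ i i',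
      ‖(g.1⁻¹).1ᵀ i i' - D i i'‖ ≤ ‖(fun i j => (g.1⁻¹).1ᵀ i j : n → n → k)‖ / T}
  NA2 _ _ _ := univ
  Z := ⊥

theorem down_br (e : n ≃ Fin (N + 1)) (L : Lt S (SGr σ J 1) (SGr σ J r) V₁ V₂)
    (φ : S →* FormGroup σ J) : P2.NABr e (down L φ) :=
  P2.nabr_of e (fun _ => rfl) (fun _ _ _ _ hg => hg.1) (fun _ _ _ _ hg => hg.2)

theorem down_ud {L : Lt S (SGr σ J 1) (SGr σ J r) V₁ V₂} {φ : S →* FormGroup σ J}
    (hnm : ∀ g, L.nm g = ‖(fun i j => ((φ g).1⁻¹).1ᵀ i j : n → n → k)‖) {q : Γ → S}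
    (h : L.UD q) : (down L φ).UD fun γ => φ (q γ) := by
  intro C
  obtain ⟨M, hM⟩ := h C
  refine ⟨M, fun T hT => hM T fun γ hγ γ' hγ' => ?_⟩
  have h1 := hT γ hγ γ' hγ'
  rw [hnm, map_mul, map_inv]
  exact h1

/-- **the count for `S` from the counts over the isometry group** -/
theorem cnt0_of_down [Fact (Continuous σ)] {L : Lt S (SGr σ J 1) (SGr σ J r) V₁ V₂}
    (φ : S →* FormGroup σ J) (h1 : ∀ (g : S) (x : SGr σ J 1), g • x = φ g • x)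
    (h2 : ∀ (g : S) (x : SGr σ J 2), g • x = φ g • x)
    (hnm : ∀ g, L.nm g = ‖(fun i j => ((φ g).1⁻¹).1ᵀ i j : n → n → k)‖)
    (hnw : ∀ R T B g, g ∈ L.NA1 R T B → ∀ i i' j j',
      ‖((φ g).1⁻¹).1ᵀ i j * ((φ g).1⁻¹).1ᵀ i' j' -
        ((φ g).1⁻¹).1ᵀ i' j * ((φ g).1⁻¹).1ᵀ i j'‖ ≤
        R * ‖(fun i j => ((φ g).1⁻¹).1ᵀ i j : n → n → k)‖)
    (hatt : ∀ R T B g, g ∈ L.NA1 R T B → ∃ X ∈ B, ∃ D : Matrix n n k, (∀ v, D *ᵥ v ∈ X.S) ∧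
      ∀ i i', ‖((φ g).1⁻¹).1ᵀ i i' - D i i'‖ ≤
        ‖(fun i j => ((φ g).1⁻¹).1ᵀ i j : n → n → k)‖ / T)
    {q : Γ → S} (h : P2.Cnt0 (down L φ) (fun γ => φ (q γ)) K) : Cnt0 L q K :=
  cnt0_phi (L' := down L φ) φ h1 h2 hnm
    (fun g R T A hg => ⟨hnw R T A g hg, hatt R T A g hg⟩) h

end Vale.Agent.P092.H437.O
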